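import Mathlib

/-!
P068: splitting countably many infinite sets of natural numbers, and filling intervals of sets
generically.
-/

namespace Vale.Agent.P068

open Cardinal Set

/-- Every family of fewer than continuum many infinite sets of naturals is split by one set. -/
def SplitHyp : Prop :=
  ∀ F : Set (Set ℕ), #F < continuum → (∀ A ∈ F, A.Infinite) →
    ∃ S : Set ℕ, ∀ A ∈ F, (A ∩ S).Infinite ∧ (A \ S).Infinite

/-- Countably many infinite sets are split by one set. -/
lemma split_seq (f : ℕ → Set ℕ) (hf : ∀ k, (f k).Infinite) :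
    ∃ S : Set ℕ, ∀ k, (f k ∩ S).Infinite ∧ (f k \ S).Infinite := by
  have hne : ∀ t a : ℕ, ∃ b ∈ f (Nat.unpair (t / 2)).1, a < b := fun t a ↦ (hf _).exists_gt a
  choose g hg hlt using hne
  obtain ⟨a, ha, hmem⟩ : ∃ a : ℕ → ℕ, StrictMono a ∧
      ∀ t, a t ∈ f (Nat.unpair (t / 2)).1 := by
    refine ⟨fun t ↦ Nat.rec (g 0 0) (fun t prev ↦ g (t + 1) prev) t,
      strictMono_nat_of_lt_succ fun t ↦ hlt (t + 1) _, fun t ↦ ?_⟩
    cases t with
    | zero => exact hg 0 0
    | succ t => exact hg (t + 1) _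
  refine ⟨{x | ∃ m, a (2 * m) = x}, fun k ↦ ⟨?_, ?_⟩⟩
  · refine Set.infinite_of_injective_forall_mem (f := fun m ↦ a (2 * Nat.pair k m)) ?_ fun m ↦ ?_
    · intro m m' h
      have : _ = _ := ha.injective h
      simpa using congrArg (fun z ↦ (Nat.unpair z).2) (Nat.eq_of_mul_eq_mul_left two_pos this)
    · refine ⟨?_, Nat.pair k m, rfl⟩
      simpa using hmem (2 * Nat.pair k m)
  · refine Set.infinite_of_injective_forall_mem (f := fun m ↦ a (2 * Nat.pair k m + 1)) ?_ fun m ↦ ?_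
    · intro m m' h
      have : _ = _ := ha.injective h
      simpa using congrArg (fun z ↦ (Nat.unpair z).2)
        (show Nat.pair k m = Nat.pair k m' by omega)
    · refine ⟨?_, fun ⟨j, hj⟩ ↦ by have : _ = _ := ha.injective hj; omega⟩
      have h := hmem (2 * Nat.pair k m + 1)
      rw [show (2 * Nat.pair k m + 1) / 2 = Nat.pair k m by omega, Nat.unpair_pair] at h
      exact h

/-- The continuum hypothesis gives the splitting hypothesis. -/
lemma splitHyp_of_ch (h : (continuum : Cardinal.{0}) = aleph 1) : SplitHyp := by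
  intro F hF hinf
  have hc : F.Countable := by
    rw [← le_aleph0_iff_set_countable, ← Order.lt_succ_iff, succ_aleph0]
    exact hF.trans_eq h
  rcases F.eq_empty_or_nonempty with rfl | hne
  · exact ⟨∅, by simp⟩
  obtain ⟨f, rfl⟩ := hc.exists_eq_range hne
  obtain ⟨S, hS⟩ := split_seq f fun k ↦ hinf _ ⟨k, rfl⟩
  exact ⟨S, by rintro A ⟨k, rfl⟩; exact hS k⟩

/-- The fixed nonprincipal ultrafilter. -/
noncomputable def bigU : Ultrafilter ℕ := Filter.hyperfilter ℕ

/-- A set is large if it belongs to the fixed ultrafilter. -/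
def Big (A : Set ℕ) : Prop := A ∈ bigU

lemma Big.infinite {A : Set ℕ} (h : Big A) : A.Infinite := fun hf ↦
  (Set.Finite.notMem_hyperfilter hf) h

lemma Big.mono {A B : Set ℕ} (h : Big A) (hAB : A ⊆ B) : Big B :=
  Filter.mem_of_superset h hAB

lemma big_univ : Big univ := Filter.univ_mem

lemma not_big_empty : ¬ Big ∅ := fun h ↦ h.infinite finite_empty

lemma big_compl {A : Set ℕ} : Big Aᶜ ↔ ¬ Big A := Ultrafilter.compl_mem_iff_notMem

lemma big_inter {A B : Set ℕ} (hA : Big A) (hB : Big B) : Big (A ∩ B) := Filter.inter_mem hA hB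

lemma big_union {A B : Set ℕ} : Big (A ∪ B) ↔ Big A ∨ Big B := Ultrafilter.union_mem_iff

lemma big_congr {A B : Set ℕ} (h1 : (A \ B).Finite) (h : Big A) : Big B := by
  have h2 : Big (A \ B ∪ B) := h.mono (by intro x hx; by_cases x ∈ B <;> simp_all)
  exact (big_union.1 h2).resolve_left fun h ↦ h.infinite h1

/-- Fill an interval of sets generically with respect to a small family. -/
lemma fill (hS : SplitHyp) {Q : Set (Set ℕ)} (hQ : #Q < continuum) {I X : Set ℕ} (hIX : I ⊆ X)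
    {big : Prop} (h1 : big → Big X) (h2 : ¬ big → ¬ Big I) :
    ∃ N, I ⊆ N ∧ N ⊆ X ∧ (Big N ↔ big) ∧
      ∀ A ∈ Q, ((A ∩ X).Infinite → (A ∩ N).Infinite) ∧ ((A \ I).Infinite → (A \ N).Infinite) := by
  classical
  set F : Set (Set ℕ) := {B ∈ (fun A ↦ A ∩ (X \ I)) '' Q | B.Infinite}
  obtain ⟨S, hSF⟩ := hS F (((mk_le_mk_of_subset (sep_subset _ _)).trans mk_image_le).trans_lt hQ)
    fun A hA ↦ hA.2
  have key : ∀ T : Set ℕ, (T = S ∨ T = Sᶜ) → ∀ A ∈ Q, (A ∩ (X \ I)).Infinite →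
      (A ∩ (X \ I) ∩ T).Infinite ∧ ((A ∩ (X \ I)) \ T).Infinite := by
    intro T hT A hA hi
    obtain ⟨a, b⟩ := hSF _ ⟨⟨A, hA, rfl⟩, hi⟩
    rcases hT with rfl | rfl
    · exact ⟨a, b⟩
    · exact ⟨by rwa [← sdiff_eq], by rwa [sdiff_compl]⟩
  obtain ⟨T, hT, hbT⟩ : ∃ T, (T = S ∨ T = Sᶜ) ∧ (Big (I ∪ (X \ I) ∩ T) ↔ big) := by
    by_cases hI : Big I
    · exact ⟨S, .inl rfl, iff_of_true (hI.mono subset_union_left)
        (by_contra fun hb ↦ h2 hb hI)⟩
    simp only [big_union, hI, false_or]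
    by_cases hb : big
    · have hX := h1 hb
      rw [← union_sdiff_cancel hIX, big_union, or_iff_right hI,
        ← inter_union_compl (X \ I) S, big_union] at hX
      rcases hX with h | h
      · exact ⟨S, .inl rfl, iff_of_true h hb⟩
      · exact ⟨Sᶜ, .inr rfl, iff_of_true h hb⟩
    · by_cases h : Big ((X \ I) ∩ S)
      · refine ⟨Sᶜ, .inr rfl, iff_of_false (fun h' ↦ ?_) hb⟩
        have := (big_inter h h').infinite
        refine this (finite_empty.subset fun x hx ↦ (hx.2.2 hx.1.2).elim)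
      · exact ⟨S, .inl rfl, iff_of_false h hb⟩
  refine ⟨_, subset_union_left, union_subset hIX (inter_subset_left.trans sdiff_subset), hbT,
    fun A hA ↦ ⟨fun hi ↦ ?_, fun hi ↦ ?_⟩⟩
  · by_cases hd : (A ∩ (X \ I)).Infinite
    · exact (key T hT A hA hd).1.mono fun x hx ↦ ⟨hx.1.1, .inr ⟨hx.1.2, hx.2⟩⟩
    · intro hf
      exact hi (((not_infinite.1 hd).union hf).subset fun x hx ↦ by
        by_cases hxI : x ∈ I
        · exact .inr ⟨hx.1, .inl hxI⟩
        · exact .inl ⟨hx.1, hx.2, hxI⟩)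
  · by_cases hd : (A ∩ (X \ I)).Infinite
    · exact (key T hT A hA hd).2.mono fun x hx ↦
        ⟨hx.1.1, fun h ↦ h.elim hx.1.2.2 fun h ↦ hx.2 h.2⟩
    · intro hf
      exact hi (((not_infinite.1 hd).union hf).subset fun x hx ↦ by
        by_cases hxX : x ∈ X
        · exact .inl ⟨hx.1, hxX, hx.2⟩
        · exact .inr ⟨hx.1, fun h ↦ h.elim hx.2 fun h ↦ hxX h.1.1⟩)

end Vale.Agent.P068
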