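import Mathlib
import Vale.Agent.P068.Split

/-!
P068: one step of the construction. Ground set: an incoming and an outgoing copy of the naturals.
-/

namespace Vale.Agent.P068

open Cardinal Set

/-- The two-sided ground set. -/
abbrev Y : Type := ℕ ⊕ ℕ

/-- The incoming part of a set. -/
def din (B : Set Y) : Set ℕ := Sum.inl ⁻¹' B

/-- The outgoing part of a set. -/
def dout (B : Set Y) : Set ℕ := Sum.inr ⁻¹' B

/-- The set with given parts. -/
def mk2 (a b : Set ℕ) : Set Y := Sum.inl '' a ∪ Sum.inr '' b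

@[simp] lemma din_mk2 (a b : Set ℕ) : din (mk2 a b) = a := by ext; simp [din, mk2]
@[simp] lemma dout_mk2 (a b : Set ℕ) : dout (mk2 a b) = b := by ext; simp [dout, mk2]

lemma sub_of_parts {A B : Set Y} (h1 : din A ⊆ din B) (h2 : dout A ⊆ dout B) : A ⊆ B := by
  rintro (n | n) hn
  · exact h1 hn
  · exact h2 hn

lemma finite_of_parts {A : Set Y} (h1 : (din A).Finite) (h2 : (dout A).Finite) : A.Finite :=
  ((h1.image Sum.inl).union (h2.image Sum.inr)).subset (by rintro (n | n) hn <;> [left; right] <;>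
    exact ⟨n, hn, rfl⟩)

lemma finite_din {A : Set Y} (h : A.Finite) : (din A).Finite :=
  h.preimage Sum.inl_injective.injOn

lemma finite_dout {A : Set Y} (h : A.Finite) : (dout A).Finite :=
  h.preimage Sum.inr_injective.injOn

/-- Containment up to finitely many points. -/
def AS (A B : Set Y) : Prop := (A \ B).Finite

lemma AS.of_subset {A B : Set Y} (h : A ⊆ B) : AS A B := by
  simp [AS, sdiff_eq_empty.2 h]

lemma AS.trans {A B C : Set Y} (h1 : AS A B) (h2 : AS B C) : AS A C :=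
  (h1.union h2).subset fun x hx ↦ by by_cases x ∈ B <;> simp_all

lemma AS.rfl' {A : Set Y} : AS A A := .of_subset subset_rfl

lemma AS.din {A B : Set Y} (h : AS A B) : (din A \ din B).Finite := finite_din h

lemma AS.dout {A B : Set Y} (h : AS A B) : (dout A \ dout B).Finite := finite_dout h

lemma not_AS {A B : Set Y} (h : ¬ AS A B) :
    (din A \ din B).Infinite ∨ (dout A \ dout B).Infinite := by
  by_contra hc
  simp only [not_or, not_infinite] at hc
  exact h (finite_of_parts (A := A \ B) hc.1 hc.2)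

/-- Exactly one part is large. -/
def One (B : Set Y) : Prop := ¬ (Big (din B) ↔ Big (dout B))

/-- The forbidden adjacencies between a base of a parent and a base of a child. -/
def Link (P C : Set Y) : Prop :=
  (Big (dout P) ∧ Big (dout C) ∧ (dout P ∩ din C).Finite) ∨
    (Big (din P) ∧ Big (din C) ∧ (dout P ∪ din C)ᶜ.Finite)

lemma One.not_in {B : Set Y} (h : One B) (hb : Big (dout B)) : ¬ Big (din B) := fun h' ↦
  h (iff_of_true h' hb)

lemma One.not_out {B : Set Y} (h : One B) (hb : Big (din B)) : ¬ Big (dout B) := fun h' ↦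
  h (iff_of_true hb h')

variable {τ : Type} [LinearOrder τ]

/-- The invariant of the family of representatives with ranks. -/
def Inv (O : Set (Set Y × τ)) : Prop :=
  ∀ x ∈ O, One x.1 ∧ ∀ y ∈ O, (x ≠ y → ¬ AS x.1 y.1) ∧ (Link x.1 y.1 → y.2 < x.2)

/-- The sets that a new base has to cut. -/
def cuts (O : Set (Set Y × τ)) (extra : Set ℕ) : Set (Set ℕ) :=
  insert extra ((fun x ↦ din x.1) '' O ∪ (fun x ↦ (din x.1)ᶜ) '' O ∪
    ((fun x ↦ dout x.1) '' O ∪ (fun x ↦ (dout x.1)ᶜ) '' O))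

omit [LinearOrder τ] in
lemma mk_cuts {O : Set (Set Y × τ)} (hO : #O < continuum) (extra : Set ℕ) :
    #(cuts O extra) < continuum := by
  have h : ∀ f : Set Y × τ → Set ℕ, #(f '' O) < continuum := fun f ↦ mk_image_le.trans_lt hO
  have hu : ∀ {A B : Set (Set ℕ)}, #A < continuum → #B < continuum →
      #(A ∪ B : Set (Set ℕ)) < continuum := fun hA hB ↦
    (mk_union_le _ _).trans_lt (add_lt_of_lt aleph0_le_continuum hA hB)
  exact mk_insert_le.trans_lt (add_lt_of_lt aleph0_le_continuum (hu (hu (h _) (h _)) (hu (h _) (h _)))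
    (one_lt_aleph0.trans aleph0_lt_continuum))

variable {O : Set (Set Y × τ)}

lemma inv_insert (hI : Inv O) {N : Set Y} {r : τ} (h1 : One N) (h2 : ¬ Link N N)
    (h3 : ∀ x ∈ O, ¬ AS x.1 N ∧ ¬ AS N x.1)
    (h4 : ∀ x ∈ O, Link x.1 N → r < x.2) (h5 : ∀ x ∈ O, Link N x.1 → x.2 < r) :
    Inv (insert (N, r) O) := by
  rintro x (rfl | hx)
  · refine ⟨h1, ?_⟩
    rintro y (rfl | hy)
    · exact ⟨fun h ↦ absurd rfl h, fun h ↦ absurd h h2⟩
    · exact ⟨fun _ ↦ (h3 y hy).2, h5 y hy⟩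
  · refine ⟨(hI x hx).1, ?_⟩
    rintro y (rfl | hy)
    · exact ⟨fun _ ↦ (h3 x hx).1, h4 x hx⟩
    · exact (hI x hx).2 y hy

/-- A new base with large outgoing part. -/
lemma extend_out (hS : SplitHyp) (hI : Inv O) (hO : #O < continuum) {I X : Set Y} (hIX : I ⊆ X)
    (hi : ¬ Big (din I)) (ho : Big (dout X)) (hlow : ∀ x ∈ O, ¬ AS x.1 I ∧ ¬ AS X x.1)
    (hself : (din X ∩ dout X).Infinite) {r : τ}
    (hp : ∀ x ∈ O, Big (dout x.1) → (dout x.1 ∩ din X).Finite → r < x.2)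
    (hc : ∀ x ∈ O, Big (dout x.1) → (dout X ∩ din x.1).Finite → x.2 < r) :
    ∃ N, I ⊆ N ∧ N ⊆ X ∧ Inv (insert (N, r) O) := by
  obtain ⟨No, o1, o2, o3, o4⟩ := fill hS (mk_cuts hO (din X)) (big := True)
    (show dout I ⊆ dout X from fun n hn ↦ hIX hn) (fun _ ↦ ho) (fun h ↦ absurd trivial h)
  obtain ⟨Ni, i1, i2, i3, i4⟩ := fill hS (mk_cuts hO No) (big := False)
    (show din I ⊆ din X from fun n hn ↦ hIX hn) (fun h ↦ h.elim) (fun _ ↦ hi)
  have hN1 : One (mk2 Ni No) := by simp [One, o3, i3]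
  refine ⟨mk2 Ni No, sub_of_parts (by simpa using i1) (by simpa using o1),
    sub_of_parts (by simpa using i2) (by simpa using o2),
    inv_insert hI hN1 ?_ (fun x hx ↦ ⟨fun h ↦ ?_, fun h ↦ ?_⟩) (fun x hx h ↦ ?_) (fun x hx h ↦ ?_)⟩
  · rintro (⟨-, -, h⟩ | ⟨h, -, -⟩)
    · rw [din_mk2, dout_mk2] at h
      have e1 := (o4 _ (mem_insert _ _)).1 hself
      have e2 := (i4 _ (mem_insert _ _)).1 (by rwa [inter_comm] at e1)
      exact e2 h
    · rw [din_mk2] at h; exact i3.1 h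
  · rcases not_AS (hlow x hx).1 with h' | h'
    · exact (i4 _ (mem_insert_of_mem _ (.inl (.inl ⟨x, hx, rfl⟩)))).2 h' (by simpa using h.din)
    · exact (o4 _ (mem_insert_of_mem _ (.inr (.inl ⟨x, hx, rfl⟩)))).2 h' (by simpa using h.dout)
  · rcases not_AS (hlow x hx).2 with h' | h'
    · refine (i4 _ (mem_insert_of_mem _ (.inl (.inr ⟨x, hx, rfl⟩)))).1
        (by rw [inter_comm]; simpa only [← Set.sdiff_eq] using h') ?_
      rw [inter_comm]; simp only [← Set.sdiff_eq]; simpa using h.din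
    · refine (o4 _ (mem_insert_of_mem _ (.inr (.inr ⟨x, hx, rfl⟩)))).1
        (by rw [inter_comm]; simpa only [← Set.sdiff_eq] using h') ?_
      rw [inter_comm]; simp only [← Set.sdiff_eq]; simpa using h.dout
  · rcases h with ⟨h, -, hf⟩ | ⟨-, h, -⟩
    · rw [din_mk2] at hf
      exact hp x hx h (by_contra fun hinf ↦
        (i4 _ (mem_insert_of_mem _ (.inr (.inl ⟨x, hx, rfl⟩)))).1 hinf hf)
    · rw [din_mk2] at h; exact absurd h i3.1
  · rcases h with ⟨-, h, hf⟩ | ⟨h, -, -⟩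
    · rw [dout_mk2, inter_comm] at hf
      refine hc x hx h (by_contra fun hinf ↦ ?_)
      rw [inter_comm] at hinf
      exact (o4 _ (mem_insert_of_mem _ (.inl (.inl ⟨x, hx, rfl⟩)))).1 hinf hf
    · rw [din_mk2] at h; exact absurd h i3.1

/-- A new base with large incoming part. -/
lemma extend_in (hS : SplitHyp) (hI : Inv O) (hO : #O < continuum) {I X : Set Y} (hIX : I ⊆ X)
    (hi : ¬ Big (dout I)) (ho : Big (din X)) (hlow : ∀ x ∈ O, ¬ AS x.1 I ∧ ¬ AS X x.1)
    (hself : (din I ∪ dout I)ᶜ.Infinite) {r : τ}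
    (hp : ∀ x ∈ O, Big (din x.1) → (dout x.1 ∪ din I)ᶜ.Finite → r < x.2)
    (hc : ∀ x ∈ O, Big (din x.1) → (dout I ∪ din x.1)ᶜ.Finite → x.2 < r) :
    ∃ N, I ⊆ N ∧ N ⊆ X ∧ Inv (insert (N, r) O) := by
  obtain ⟨No, o1, o2, o3, o4⟩ := fill hS (mk_cuts hO (din I)ᶜ) (big := False)
    (show dout I ⊆ dout X from fun n hn ↦ hIX hn) (fun h ↦ h.elim) (fun _ ↦ hi)
  obtain ⟨Ni, i1, i2, i3, i4⟩ := fill hS (mk_cuts hO Noᶜ) (big := True)
    (show din I ⊆ din X from fun n hn ↦ hIX hn) (fun _ ↦ ho) (fun h ↦ absurd trivial h)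
  have hN1 : One (mk2 Ni No) := by simp [One, o3, i3]
  have c1 : ∀ a b : Set ℕ, (a ∪ b)ᶜ = aᶜ \ b := fun a b ↦ by rw [compl_union, Set.sdiff_eq]
  have c2 : ∀ a b : Set ℕ, (a ∪ b)ᶜ = bᶜ \ a := fun a b ↦ by rw [union_comm, c1]
  refine ⟨mk2 Ni No, sub_of_parts (by simpa using i1) (by simpa using o1),
    sub_of_parts (by simpa using i2) (by simpa using o2),
    inv_insert hI hN1 ?_ (fun x hx ↦ ⟨fun h ↦ ?_, fun h ↦ ?_⟩) (fun x hx h ↦ ?_) (fun x hx h ↦ ?_)⟩
  · rintro (⟨h, -, -⟩ | ⟨-, -, h⟩)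
    · rw [dout_mk2] at h; exact o3.1 h
    · rw [din_mk2, dout_mk2, c1] at h
      rw [c1] at hself
      have e1 := (o4 _ (mem_insert _ _)).2 hself
      have e2 := (i4 _ (mem_insert _ _)).2 (by rwa [Set.sdiff_eq, inter_comm, ← Set.sdiff_eq] at e1)
      exact e2 h
  · rcases not_AS (hlow x hx).1 with h' | h'
    · exact (i4 _ (mem_insert_of_mem _ (.inl (.inl ⟨x, hx, rfl⟩)))).2 h' (by simpa using h.din)
    · exact (o4 _ (mem_insert_of_mem _ (.inr (.inl ⟨x, hx, rfl⟩)))).2 h' (by simpa using h.dout)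
  · rcases not_AS (hlow x hx).2 with h' | h'
    · refine (i4 _ (mem_insert_of_mem _ (.inl (.inr ⟨x, hx, rfl⟩)))).1
        (by rw [inter_comm]; simpa only [← Set.sdiff_eq] using h') ?_
      rw [inter_comm]; simp only [← Set.sdiff_eq]; simpa using h.din
    · refine (o4 _ (mem_insert_of_mem _ (.inr (.inr ⟨x, hx, rfl⟩)))).1
        (by rw [inter_comm]; simpa only [← Set.sdiff_eq] using h') ?_
      rw [inter_comm]; simp only [← Set.sdiff_eq]; simpa using h.dout
  · rcases h with ⟨-, h, -⟩ | ⟨h, -, hf⟩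
    · rw [dout_mk2] at h; exact absurd h o3.1
    · rw [din_mk2, c1] at hf
      refine hp x hx h (by_contra fun hinf ↦ ?_)
      rw [c1] at hinf
      exact (i4 _ (mem_insert_of_mem _ (.inr (.inr ⟨x, hx, rfl⟩)))).2 hinf hf
  · rcases h with ⟨h, -, -⟩ | ⟨-, h, hf⟩
    · rw [dout_mk2] at h; exact absurd h o3.1
    · rw [dout_mk2, c2] at hf
      refine hc x hx h (by_contra fun hinf ↦ ?_)
      rw [c2] at hinf
      exact (o4 _ (mem_insert_of_mem _ (.inl (.inr ⟨x, hx, rfl⟩)))).2 hinf hf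

end Vale.Agent.P068
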