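import Mathlib
import Vale.Agent.P068.Extend

/-!
P068: settling one interval.
-/

namespace Vale.Agent.P068

open Cardinal Set

variable {τ : Type} [LinearOrder τ]

/-- An interval is settled. -/
def Settled (O : Set (Set Y × τ)) (I X : Set Y) : Prop :=
  ∃ x ∈ O, AS X x.1 ∨ AS x.1 I ∨ (AS I x.1 ∧ AS x.1 X)

omit [LinearOrder τ] in
lemma Settled.mono {O O' : Set (Set Y × τ)} {I X : Set Y} (h : Settled O I X) (hOO : O ⊆ O') :
    Settled O' I X := by
  obtain ⟨x, hx, hh⟩ := h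
  exact ⟨x, hOO hx, hh⟩

lemma finite_inter_of_AS {A B : Set ℕ} {C : Set ℕ} (h : (A \ B).Finite) (hB : (C ∩ B).Finite) :
    (C ∩ A).Finite :=
  (h.union hB).subset fun n hn ↦ by
    by_cases hnB : n ∈ B
    · exact .inr ⟨hn.1, hnB⟩
    · exact .inl ⟨hn.2, hnB⟩

lemma finite_compl_of_AS {A B : Set ℕ} {C : Set ℕ} (h : (A \ B).Finite) (hA : (C ∪ A)ᶜ.Finite) :
    (C ∪ B)ᶜ.Finite :=
  (h.union hA).subset fun n hn ↦ by
    simp only [mem_compl_iff, mem_union, not_or] at hn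
    by_cases hnA : n ∈ A
    · exact .inl ⟨hnA, hn.2⟩
    · exact .inr (by simp [hn.1, hnA])

lemma not_big_union {A B : Set ℕ} (hA : ¬ Big A) (hB : ¬ Big B) : Big (A ∪ B)ᶜ := by
  rw [big_compl, big_union, not_or]; exact ⟨hA, hB⟩

/-- One step of the construction. -/
lemma step (hS : SplitHyp) {O : Set (Set Y × τ)} (hI : Inv O) (hO : #O < continuum) {t : τ}
    (ht : ∀ x ∈ O, x.2 < t) {I X : Set Y} (hIX : I ⊆ X)
    (hdec : I = X ∨ (Settled O I I ∧ Settled O X X)) :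
    ∃ G : Set (Set Y × τ), G.Subsingleton ∧ (∀ x ∈ G, x.2 ≤ t) ∧ Inv (O ∪ G) ∧
      Settled (O ∪ G) I X := by
  by_cases h : ∃ x ∈ O, AS X x.1 ∨ AS x.1 I
  · obtain ⟨x, hx, hh⟩ := h
    exact ⟨∅, subsingleton_empty, by simp, by simpa using hI, x, .inl hx,
      hh.imp_right Or.inl⟩
  push Not at h
  have done : ∀ {N : Set Y} {r : τ}, r ≤ t → (AS X N ∨ AS N I ∨ (I ⊆ N ∧ N ⊆ X)) →
      Inv (insert (N, r) O) → ∃ G : Set (Set Y × τ), G.Subsingleton ∧ (∀ x ∈ G, x.2 ≤ t) ∧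
        Inv (O ∪ G) ∧ Settled (O ∪ G) I X := fun {N r} hr hN hinv ↦
    ⟨{(N, r)}, subsingleton_singleton, by simpa using hr, by rwa [union_singleton],
      (N, r), .inr rfl, hN.imp_right fun h ↦ h.imp_right fun h ↦ ⟨.of_subset h.1, .of_subset h.2⟩⟩
  rcases hdec with rfl | ⟨hdI, hdX⟩
  · have hu : ∀ x ∈ O, ¬ AS univ x.1 := fun x hx hf ↦ (hI x hx).1
      (iff_of_true (big_congr hf.din big_univ) (big_congr hf.dout big_univ))
    have hempty : ∀ x ∈ O, ¬ AS x.1 (∅ : Set Y) := fun x hx hf ↦ (hI x hx).1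
      (iff_of_false (fun hb ↦ not_big_empty (big_congr hf.din hb))
        (fun hb ↦ not_big_empty (big_congr hf.dout hb)))
    by_cases hi : Big (din I)
    · obtain ⟨N, -, hN, hinv⟩ := extend_in (r := t) hS hI hO (empty_subset I) not_big_empty hi
        (fun x hx ↦ ⟨hempty x hx, (h x hx).1⟩) (by simp [din, dout, infinite_univ])
        (fun x hx hb hf ↦ absurd hf (Big.infinite (by
          rw [big_compl, big_union, not_or]
          exact ⟨(hI x hx).1.not_out hb, not_big_empty⟩)))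
        (fun x hx _ _ ↦ ht x hx)
      exact done le_rfl (.inr (.inl (.of_subset hN))) hinv
    by_cases ho : Big (dout I)
    · obtain ⟨N, hN, -, hinv⟩ := extend_out (r := t) hS hI hO (subset_univ I) hi big_univ
        (fun x hx ↦ ⟨(h x hx).2, hu x hx⟩) (by simp [din, dout, infinite_univ])
        (fun x hx hb hf ↦ absurd hf (by simpa [din] using hb.infinite))
        (fun x hx _ _ ↦ ht x hx)
      exact done le_rfl (.inl (.of_subset hN)) hinv
    · obtain ⟨N, hN, -, hinv⟩ := extend_in (r := t) hS hI hO (subset_univ I) ho big_univ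
        (fun x hx ↦ ⟨(h x hx).2, hu x hx⟩) (not_big_union hi ho).infinite
        (fun x hx hb hf ↦ absurd hf (not_big_union ((hI x hx).1.not_out hb) hi).infinite)
        (fun x hx _ _ ↦ ht x hx)
      exact done le_rfl (.inl (.of_subset hN)) hinv
  obtain ⟨b1, hb1, hI1⟩ : ∃ x ∈ O, AS I x.1 := by
    obtain ⟨x, hx, hh⟩ := hdI
    rcases hh with hh | hh | hh
    · exact ⟨x, hx, hh⟩
    · exact absurd hh (h x hx).2
    · exact ⟨x, hx, hh.1⟩
  obtain ⟨b0, hb0, hX0⟩ : ∃ x ∈ O, AS x.1 X := by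
    obtain ⟨x, hx, hh⟩ := hdX
    rcases hh with hh | hh | hh
    · exact absurd hh (h x hx).1
    · exact ⟨x, hx, hh⟩
    · exact ⟨x, hx, hh.2⟩
  have hlow : ∀ x ∈ O, ¬ AS x.1 I ∧ ¬ AS X x.1 := fun x hx ↦ (h x hx).symm
  by_cases hiI : Big (din I)
  · have hb : Big (din b1.1) := big_congr hI1.din hiI
    have hno := fun h' ↦ (hI b1 hb1).1.not_out hb (big_congr hI1.dout h')
    refine Exists.elim (extend_in (r := b1.2) hS hI hO hIX hno
      (hiI.mono fun n hn ↦ hIX hn) hlow (fun hf ↦ ?_) (fun x hx hb' hf ↦ ?_) (fun x hx hb' hf ↦ ?_))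
      fun N hN ↦ done (ht b1 hb1).le (.inr (.inr ⟨hN.1, hN.2.1⟩)) hN.2.2
    · refine lt_irrefl b1.2 (((hI b1 hb1).2 b1 hb1).2 (.inr ⟨hb, hb, ?_⟩))
      rw [union_comm] at hf
      have h1 := finite_compl_of_AS hI1.din hf
      rw [union_comm] at h1
      have h2 := finite_compl_of_AS hI1.dout h1
      rwa [union_comm] at h2
    · exact ((hI x hx).2 b1 hb1).2 (.inr ⟨hb', hb, finite_compl_of_AS hI1.din hf⟩)
    · rw [union_comm] at hf
      exact ((hI b1 hb1).2 x hx).2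
        (.inr ⟨hb, hb', by rw [union_comm]; exact finite_compl_of_AS hI1.dout hf⟩)
  by_cases hoX : Big (dout X)
  · by_cases hiX : Big (din X)
    · obtain ⟨N, h1, h2, hinv⟩ := extend_out (r := t) hS hI hO hIX hiI hoX hlow
        (big_inter hiX hoX).infinite
        (fun x hx hb hf ↦ absurd hf (big_inter hb hiX).infinite) (fun x hx _ _ ↦ ht x hx)
      exact done le_rfl (.inr (.inr ⟨h1, h2⟩)) hinv
    · have hni : ¬ Big (din b0.1) := fun h' ↦ hiX (big_congr hX0.din h')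
      have hb : Big (dout b0.1) := by_contra fun h' ↦ (hI b0 hb0).1 (iff_of_false hni h')
      refine Exists.elim (extend_out (r := b0.2) hS hI hO hIX hiI hoX hlow
        (fun hf ↦ ?_) (fun x hx hb' hf ↦ ?_) (fun x hx hb' hf ↦ ?_))
        fun N hN ↦ done (ht b0 hb0).le (.inr (.inr ⟨hN.1, hN.2.1⟩)) hN.2.2
      · refine lt_irrefl b0.2 (((hI b0 hb0).2 b0 hb0).2 (.inl ⟨hb, hb, ?_⟩))
        rw [inter_comm] at hf
        have h1 := finite_inter_of_AS hX0.din hf
        rw [inter_comm] at h1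
        have h2 := finite_inter_of_AS hX0.dout h1
        rwa [inter_comm] at h2
      · exact ((hI x hx).2 b0 hb0).2 (.inl ⟨hb', hb, finite_inter_of_AS hX0.din hf⟩)
      · rw [inter_comm] at hf
        exact ((hI b0 hb0).2 x hx).2
          (.inl ⟨hb, hb', by rw [inter_comm]; exact finite_inter_of_AS hX0.dout hf⟩)
  · have hnb : ¬ Big (dout b0.1) := fun h' ↦ hoX (big_congr hX0.dout h')
    have hbi : Big (din b0.1) := by_contra fun h' ↦ (hI b0 hb0).1 (iff_of_false h' hnb)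
    have hoI : ¬ Big (dout I) := fun h' ↦ hoX (h'.mono fun n hn ↦ hIX hn)
    obtain ⟨N, h1, h2, hinv⟩ := extend_in (r := t) hS hI hO hIX hoI (big_congr hX0.din hbi) hlow
      (not_big_union hiI hoI).infinite
      (fun x hx hb hf ↦ absurd hf (not_big_union ((hI x hx).1.not_out hb) hiI).infinite)
      (fun x hx _ _ ↦ ht x hx)
    exact done le_rfl (.inr (.inr ⟨h1, h2⟩)) hinv

end Vale.Agent.P068
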