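import Mathlib
import Vale.Agent.P068.Step

/-!
P068: the uniform matroid with well-founded adjacencies.
-/

namespace Vale.Agent.P068

open Cardinal Set

/-! ### Classes of finite exchanges -/

/-- Equality up to exchanging finitely many points for equally many. -/
def Eqv (B C : Set Y) : Prop :=
  ∃ F : Set Y, F.Finite ∧ B \ F = C \ F ∧ (B ∩ F).ncard = (C ∩ F).ncard

lemma Eqv.refl (B : Set Y) : Eqv B B := ⟨∅, finite_empty, rfl, rfl⟩

lemma Eqv.AS {B C : Set Y} (h : Eqv B C) : P068.AS B C := by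
  obtain ⟨F, hF, h1, -⟩ := h
  refine hF.subset fun x hx ↦ by_contra fun hxF ↦ hx.2 ?_
  exact ((Set.ext_iff.1 h1 x).1 ⟨hx.1, hxF⟩).1

lemma Eqv.symm {B C : Set Y} (h : Eqv B C) : Eqv C B := by
  obtain ⟨F, hF, h1, h2⟩ := h
  exact ⟨F, hF, h1.symm, h2.symm⟩

lemma Eqv.enlarge {B C F G : Set Y} (hG : G.Finite) (hFG : F ⊆ G) (h1 : B \ F = C \ F)
    (h2 : (B ∩ F).ncard = (C ∩ F).ncard) :
    B \ G = C \ G ∧ (B ∩ G).ncard = (C ∩ G).ncard := by
  refine ⟨by rw [← union_eq_right.2 hFG, ← sdiff_sdiff, ← sdiff_sdiff, h1], ?_⟩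
  have e : ∀ A : Set Y, (A ∩ G).ncard = (A ∩ F).ncard + ((A \ F) ∩ G).ncard := fun A ↦ by
    rw [← ncard_union_eq (disjoint_left.2 fun x hx hx' ↦ hx'.1.2 hx.2)
      ((hG.subset hFG).inter_of_right _) (hG.inter_of_right _)]
    congr 1
    ext x
    by_cases hx : x ∈ F <;> simp [hx, mem_of_subset_of_mem hFG]
  rw [e B, e C, h1, h2]

lemma Eqv.trans {B C D : Set Y} (h : Eqv B C) (h' : Eqv C D) : Eqv B D := by
  obtain ⟨F, hF, h1, h2⟩ := h
  obtain ⟨G, hG, g1, g2⟩ := h'
  obtain ⟨a1, a2⟩ := Eqv.enlarge (hF.union hG) subset_union_left h1 h2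
  obtain ⟨b1, b2⟩ := Eqv.enlarge (hF.union hG) subset_union_right g1 g2
  exact ⟨F ∪ G, hF.union hG, a1.trans b1, a2.trans b2⟩

lemma Eqv.eq_of_subset {B C : Set Y} (h : Eqv B C) (hBC : B ⊆ C) : B = C := by
  obtain ⟨F, hF, h1, h2⟩ := h
  have h3 : B ∩ F = C ∩ F :=
    eq_of_subset_of_ncard_le (inter_subset_inter_left _ hBC) h2.ge (hF.inter_of_right _)
  rw [← inter_union_sdiff B F, ← inter_union_sdiff C F, h1, h3]

lemma Eqv.exchange {B : Set Y} {e f : Y} (he : e ∈ B) (hf : f ∉ B) :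
    Eqv (insert f (B \ {e})) B := by
  have hne : e ≠ f := fun h ↦ hf (h ▸ he)
  refine ⟨{e, f}, toFinite _, ?_, ?_⟩
  · ext x; simp; grind
  · have h1 : insert f (B \ {e}) ∩ {e, f} = {f} := by ext x; simp; grind
    have h2 : B ∩ {e, f} = {e} := by ext x; simp; grind
    rw [h1, h2, ncard_singleton, ncard_singleton]

/-- Members of the class of `B` settle the intervals that `B` settles up to finite sets. -/
lemma settle_between {B I X : Set Y} (hIX : I ⊆ X) (h1 : AS I B) (h2 : AS B X) :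
    ∃ B', Eqv B' B ∧ (X ⊆ B' ∨ B' ⊆ I ∨ (I ⊆ B' ∧ B' ⊆ X)) := by
  classical
  set F0 := (I \ B) ∪ (B \ X)
  have hF0 : F0.Finite := h1.union h2
  have mem : ∀ F : Set Y, F.Finite → F0 ⊆ F → ∀ G, G ⊆ F → G.ncard = (B ∩ F).ncard →
      Eqv ((B \ F) ∪ G) B := fun F hF _ G hG hc ↦ by
    refine ⟨F, hF, ?_, ?_⟩
    · ext x; simp; grind
    · rw [← hc]; congr 1; ext x; simp; grind
  by_cases hA : (B \ I).Finite
  · set F := F0 ∪ (B \ I)
    have hF : F.Finite := hF0.union hA
    have hBF : B \ F ⊆ I := fun x hx ↦ by_contra fun h ↦ hx.2 (.inr ⟨hx.1, h⟩)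
    by_cases hn : (B ∩ F).ncard ≤ (I ∩ F).ncard
    · obtain ⟨G, hG, hGc⟩ := exists_subset_card_eq hn
      exact ⟨_, mem F hF subset_union_left G (hG.trans inter_subset_right) hGc,
        .inr (.inl (union_subset hBF (hG.trans inter_subset_left)))⟩
    push Not at hn
    by_cases hX : (X \ B).Finite
    · set F' := F ∪ (X \ B)
      have hF' : F'.Finite := hF.union hX
      by_cases hn' : (B ∩ F').ncard ≤ (X ∩ F').ncard
      · have hI' : (I ∩ F').ncard ≤ (B ∩ F').ncard := by
          have e1 : I ∩ F' ⊆ (I ∩ F) ∪ (I ∩ (F' \ F)) := by intro x; simp; tauto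
          have e2 : (B ∩ F) ∪ (I ∩ (F' \ F)) ⊆ B ∩ F' := by
            intro x hx
            rcases hx with hx | ⟨hxI, hxF', hxF⟩
            · exact ⟨hx.1, .inl hx.2⟩
            · exact ⟨by_contra fun h ↦ hxF (.inl (.inl ⟨hxI, h⟩)), hxF'⟩
          have e3 : Disjoint (B ∩ F) (I ∩ (F' \ F)) := disjoint_left.2 fun x hx hx' ↦ hx'.2.2 hx.2
          have := ncard_le_ncard e2 (hF'.inter_of_right _)
          rw [ncard_union_eq e3 (hF.inter_of_right _) (hF'.sdiff.inter_of_right _)] at this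
          have := (ncard_le_ncard e1 ((hF.inter_of_right _).union
            (hF'.sdiff.inter_of_right _))).trans (ncard_union_le _ _)
          omega
        obtain ⟨G, hG1, hG2, hGc⟩ := exists_subsuperset_card_eq
          (inter_subset_inter_left F' hIX) hI' hn'
        refine ⟨_, mem F' hF' (subset_union_left.trans subset_union_left) G
          (hG2.trans inter_subset_right) hGc, .inr (.inr ⟨fun x hx ↦ ?_, ?_⟩)⟩
        · by_cases hxF : x ∈ F'
          · exact .inr (hG1 ⟨hx, hxF⟩)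
          · exact .inl ⟨by_contra fun h ↦ hxF (.inl (.inl (.inl ⟨hx, h⟩))), hxF⟩
        · refine union_subset (fun x hx ↦ hIX (hBF ⟨hx.1, fun h ↦ hx.2 (.inl h)⟩))
            (hG2.trans inter_subset_left)
      · push Not at hn'
        obtain ⟨G, hG1, hG2, hGc⟩ := exists_subsuperset_card_eq
          (inter_subset_right (s := X) (t := F')) hn'.le
          (ncard_le_ncard inter_subset_right hF')
        refine ⟨_, mem F' hF' (subset_union_left.trans subset_union_left) G hG2 hGc,
          .inl fun x hx ↦ ?_⟩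
        by_cases hxF : x ∈ F'
        · exact .inr (hG1 ⟨hx, hxF⟩)
        · exact .inl ⟨by_contra fun h ↦ hxF (.inr ⟨hx, h⟩), hxF⟩
    · obtain ⟨H, hH, hHf, hHc⟩ := (show (X \ B).Infinite from hX).exists_subset_ncard_eq
        (B ∩ F).ncard
      set F' := F ∪ H
      have hF' : F'.Finite := hF.union hHf
      have hB' : B ∩ F' = B ∩ F := by
        ext x; constructor
        · rintro ⟨hxB, hx | hx⟩
          · exact ⟨hxB, hx⟩
          · exact absurd hxB (hH hx).2
        · exact fun hx ↦ ⟨hx.1, .inl hx.2⟩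
      have hI' : I ∩ F' = I ∩ F := by
        ext x; constructor
        · rintro ⟨hxI, hx | hx⟩
          · exact ⟨hxI, hx⟩
          · exact ⟨hxI, .inl (.inl ⟨hxI, (hH hx).2⟩)⟩
        · exact fun hx ↦ ⟨hx.1, .inl hx.2⟩
      obtain ⟨G, hG1, hG2, hGc⟩ := exists_subsuperset_card_eq (n := (B ∩ F').ncard)
        (inter_subset_inter_left F' hIX) (by rw [hB', hI']; exact hn.le)
        (by rw [hB', ← hHc]
            exact ncard_le_ncard (fun x hx ↦ ⟨(hH hx).1, .inr hx⟩) (hF'.inter_of_right _))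
      refine ⟨_, mem F' hF' (subset_union_left.trans subset_union_left) G
        (hG2.trans inter_subset_right) hGc, .inr (.inr ⟨fun x hx ↦ ?_, ?_⟩)⟩
      · by_cases hxF : x ∈ F'
        · exact .inr (hG1 ⟨hx, hxF⟩)
        · exact .inl ⟨by_contra fun h ↦ hxF (.inl (.inl (.inl ⟨hx, h⟩))), hxF⟩
      · exact union_subset (fun x hx ↦ hIX (hBF ⟨hx.1, fun h ↦ hx.2 (.inl h)⟩))
          (hG2.trans inter_subset_left)
  · obtain ⟨H, hH, hHf, hHc⟩ := (show (B \ I).Infinite from hA).exists_subset_ncard_eq (I ∩ F0).ncard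
    set F := F0 ∪ H
    have hF : F.Finite := hF0.union hHf
    have hn : (I ∩ F).ncard ≤ (B ∩ F).ncard := by
      calc (I ∩ F).ncard ≤ (I ∩ F0).ncard := ncard_le_ncard (fun x hx ↦ ⟨hx.1, hx.2.resolve_right
            fun h ↦ (hH h).2 hx.1⟩) (hF0.inter_of_right _)
        _ = H.ncard := hHc.symm
        _ ≤ (B ∩ F).ncard := ncard_le_ncard (fun x hx ↦ ⟨(hH hx).1, .inr hx⟩) (hF.inter_of_right _)
    have hout : ∀ {F' : Set Y}, F ⊆ F' → B \ F' ⊆ X := fun hsub x hx ↦
      by_contra fun h ↦ hx.2 (hsub (.inl (.inr ⟨hx.1, h⟩)))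
    have hin : ∀ {F' : Set Y} {G : Set Y}, F ⊆ F' → I ∩ F' ⊆ G → I ⊆ (B \ F') ∪ G := by
      intro F' G hsub hG x hx
      by_cases hxF : x ∈ F'
      · exact .inr (hG ⟨hx, hxF⟩)
      · exact .inl ⟨by_contra fun h ↦ hxF (hsub (.inl (.inl ⟨hx, h⟩))), hxF⟩
    have grow : ∀ {K : Set Y}, K ⊆ X \ B → K.Finite →
        (I ∩ (F ∪ K)).ncard ≤ (B ∩ (F ∪ K)).ncard := by
      intro K hK hKf
      have e1 : I ∩ (F ∪ K) = I ∩ F := by
        ext x; constructor
        · rintro ⟨hxI, hx | hx⟩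
          · exact ⟨hxI, hx⟩
          · exact ⟨hxI, .inl (.inl ⟨hxI, (hK hx).2⟩)⟩
        · exact fun hx ↦ ⟨hx.1, .inl hx.2⟩
      rw [e1]
      exact hn.trans (ncard_le_ncard (inter_subset_inter_right _ subset_union_left)
        ((hF.union hKf).inter_of_right _))
    by_cases hX : (X \ B).Finite
    · set F' := F ∪ (X \ B)
      have hF' : F'.Finite := hF.union hX
      by_cases hn' : (B ∩ F').ncard ≤ (X ∩ F').ncard
      · obtain ⟨G, hG1, hG2, hGc⟩ := exists_subsuperset_card_eq
          (inter_subset_inter_left F' hIX) (grow subset_rfl hX) hn'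
        exact ⟨_, mem F' hF' (subset_union_left.trans subset_union_left) G
          (hG2.trans inter_subset_right) hGc, .inr (.inr ⟨hin subset_union_left hG1,
            union_subset (hout subset_union_left) (hG2.trans inter_subset_left)⟩)⟩
      · push Not at hn'
        obtain ⟨G, hG1, hG2, hGc⟩ := exists_subsuperset_card_eq
          (inter_subset_right (s := X) (t := F')) hn'.le
          (ncard_le_ncard inter_subset_right hF')
        refine ⟨_, mem F' hF' (subset_union_left.trans subset_union_left) G hG2 hGc,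
          .inl fun x hx ↦ ?_⟩
        by_cases hxF : x ∈ F'
        · exact .inr (hG1 ⟨hx, hxF⟩)
        · exact .inl ⟨by_contra fun h ↦ hxF (.inr ⟨hx, h⟩), hxF⟩
    · obtain ⟨K, hK, hKf, hKc⟩ := (show (X \ B).Infinite from hX).exists_subset_ncard_eq
        (B ∩ F).ncard
      have hF' : (F ∪ K).Finite := hF.union hKf
      have hB' : B ∩ (F ∪ K) = B ∩ F := by
        ext x; constructor
        · rintro ⟨hxB, hx | hx⟩
          · exact ⟨hxB, hx⟩
          · exact absurd hxB (hK hx).2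
        · exact fun hx ↦ ⟨hx.1, .inl hx.2⟩
      obtain ⟨G, hG1, hG2, hGc⟩ := exists_subsuperset_card_eq (n := (B ∩ (F ∪ K)).ncard)
        (inter_subset_inter_left (F ∪ K) hIX) (grow hK hKf)
        (by rw [hB', ← hKc]
            exact ncard_le_ncard (fun x hx ↦ ⟨(hK hx).1, .inr hx⟩) (hF'.inter_of_right _))
      exact ⟨_, mem _ hF' (subset_union_left.trans subset_union_left) G
        (hG2.trans inter_subset_right) hGc, .inr (.inr ⟨hin subset_union_left hG1,
          union_subset (hout subset_union_left) (hG2.trans inter_subset_left)⟩)⟩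

lemma settle {B I X : Set Y} (hIX : I ⊆ X) (h : AS X B ∨ AS B I ∨ (AS I B ∧ AS B X)) :
    ∃ B', Eqv B' B ∧ (X ⊆ B' ∨ B' ⊆ I ∨ (I ⊆ B' ∧ B' ⊆ X)) := by
  rcases h with h | h | ⟨h1, h2⟩
  · by_cases hb : AS B X
    · exact settle_between hIX ((AS.of_subset hIX).trans h) hb
    · obtain ⟨H, hH, hHf, hHc⟩ := (show (B \ X).Infinite from hb).exists_subset_ncard_eq
        (X \ B).ncard
      refine ⟨(B \ H) ∪ (X \ B), ⟨H ∪ (X \ B), hHf.union h, ?_, ?_⟩, .inl fun x hx ↦ ?_⟩
      · ext x; simp; grind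
      · have e1 : ((B \ H) ∪ (X \ B)) ∩ (H ∪ (X \ B)) = X \ B := by
          ext x; simp; grind
        have e2 : B ∩ (H ∪ (X \ B)) = H := by
          ext x; simp; have := @hH x; simp at this; grind
        rw [e1, e2, hHc]
      · by_cases hxB : x ∈ B
        · exact .inl ⟨hxB, fun h ↦ (hH h).2 hx⟩
        · exact .inr ⟨hx, hxB⟩
  · by_cases hb : AS I B
    · exact settle_between hIX hb (h.trans (AS.of_subset hIX))
    · obtain ⟨H, hH, hHf, hHc⟩ := (show (I \ B).Infinite from hb).exists_subset_ncard_eq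
        (B \ I).ncard
      refine ⟨(B ∩ I) ∪ H, ⟨H ∪ (B \ I), hHf.union h, ?_, ?_⟩, .inr (.inl ?_)⟩
      · ext x; simp; have := @hH x; simp at this; grind
      · have e1 : ((B ∩ I) ∪ H) ∩ (H ∪ (B \ I)) = H := by
          ext x; simp; grind
        have e2 : B ∩ (H ∪ (B \ I)) = B \ I := by
          ext x; simp; have := @hH x; simp at this; grind
        rw [e1, e2, hHc]
      · exact union_subset inter_subset_right fun x hx ↦ (hH hx).1
  · exact settle_between hIX h1 h2

/-! ### The recursion -/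

/-- The index type of pairs. -/
abbrev Idx : Type := (continuum.{0}).ord.ToType

/-- The index type of steps. -/
abbrev Stp : Type := Idx ×ₗ Fin 3

instance : WellFoundedLT (Idx ×ₗ Fin 3) := inferInstance

/-- The invariant part of a choice for one step. -/
def Good (O : Set (Set Y × Stp)) (t : Stp) (I X : Set Y) (G : Set (Set Y × Stp)) : Prop :=
  G.Subsingleton ∧ (∀ x ∈ G, x.2 ≤ t) ∧ Inv (O ∪ G) ∧ Settled (O ∪ G) I X

lemma mk_Y_pairs : #(Set Y × Set Y) = #Idx := by
  simp [mk_set, two_power_aleph0]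

/-- The pairs, listed. -/
noncomputable def pairOf : Idx ≃ Set Y × Set Y := (Cardinal.eq.1 mk_Y_pairs.symm).some

/-- The interval handled at a step. -/
noncomputable def task (t : Stp) : Set Y × Set Y :=
  if (ofLex t).2 = 0 then ((pairOf (ofLex t).1).2, (pairOf (ofLex t).1).2)
  else if (ofLex t).2 = 1 then ((pairOf (ofLex t).1).1, (pairOf (ofLex t).1).1)
  else pairOf (ofLex t).1

open Classical in
/-- The choice at a step. -/
noncomputable def pick (O : Set (Set Y × Stp)) (t : Stp) : Set (Set Y × Stp) :=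
  if h : ∃ G, Good O t (task t).1 (task t).2 G then h.choose else ∅

/-- The added representatives. -/
noncomputable def added : Stp → Set (Set Y × Stp) :=
  WellFounded.fix (C := fun _ ↦ Set (Set Y × Stp)) wellFounded_lt
    fun t ih ↦ pick (⋃ (s : Stp) (h : s < t), ih s h) t

/-- The representatives before a step. -/
noncomputable def before (t : Stp) : Set (Set Y × Stp) := ⋃ (s : Stp) (_ : s < t), added s

lemma added_eq (t : Stp) : added t = pick (before t) t := by
  rw [added, WellFounded.fix_eq]; rfl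

lemma added_sub (t : Stp) : (added t).Subsingleton ∧ ∀ x ∈ added t, x.2 ≤ t := by
  rw [added_eq, pick]
  split_ifs with h
  · exact ⟨h.choose_spec.1, h.choose_spec.2.1⟩
  · exact ⟨subsingleton_empty, by simp⟩

lemma mk_Iio_Stp (t : Stp) : #(Iio t) < continuum := by
  have h1 : #(Iio t) ≤ #(Iic (ofLex t).1 ×ˢ (univ : Set (Fin 3)) : Set (Idx × Fin 3)) := by
    refine mk_le_of_injective (f := fun s ↦ ⟨ofLex s.1, ?_, trivial⟩) fun a b hab ↦ ?_
    · rcases Prod.Lex.lt_iff.1 (s.2 : s.1 < t) with h | h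
      · exact h.le
      · exact h.1.le
    · exact Subtype.ext (ofLex.injective (congrArg Subtype.val hab :))
  refine h1.trans_lt ?_
  rw [Cardinal.mk_setProd]
  refine mul_lt_of_lt aleph0_le_continuum ?_ ((lt_aleph0_of_finite _).trans aleph0_lt_continuum)
  rw [← Iio_insert]
  refine mk_insert_le.trans_lt (add_lt_of_lt aleph0_le_continuum ?_
    (one_lt_aleph0.trans aleph0_lt_continuum))
  exact (mk_Iio_lt _ (by simp)).trans_eq (mk_ord_toType _)

lemma mk_before (t : Stp) : #(before t) < continuum := by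
  refine lt_of_le_of_lt ?_ (mk_Iio_Stp t)
  have h : ∀ x : before t, ∃ s : Iio t, (x : Set Y × Stp) ∈ added s := by
    rintro ⟨x, hx⟩
    simp only [before, mem_iUnion] at hx
    obtain ⟨s, hs, hx⟩ := hx
    exact ⟨⟨s, hs⟩, hx⟩
  choose f hf using h
  refine mk_le_of_injective (f := f) fun x y hxy ↦ Subtype.ext ((added_sub (f x)).1 (hf x) ?_)
  rw [hxy]; exact hf y

/-- All representatives. -/
noncomputable def reps : Set (Set Y × Stp) := ⋃ t, added t

lemma before_mono {s t : Stp} (h : s < t) : before s ∪ added s ⊆ before t := by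
  rintro x (hx | hx)
  · simp only [before, mem_iUnion] at hx ⊢
    obtain ⟨r, hr, hx⟩ := hx
    exact ⟨r, hr.trans h, hx⟩
  · simp only [before, mem_iUnion]; exact ⟨s, h, hx⟩

lemma inv_iUnion {α : Type*} (A : α → Set (Set Y × Stp))
    (h : ∀ a b, ∃ c, A a ⊆ A c ∧ A b ⊆ A c ∧ Inv (A c)) : Inv (⋃ a, A a) := by
  intro x hx
  obtain ⟨a, hxa⟩ := mem_iUnion.1 hx
  obtain ⟨c, hac, -, hc⟩ := h a a
  refine ⟨(hc x (hac hxa)).1, fun y hy ↦ ?_⟩
  obtain ⟨b, hyb⟩ := mem_iUnion.1 hy
  obtain ⟨c, hac, hbc, hc⟩ := h a b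
  exact (hc x (hac hxa)).2 y (hbc hyb)

lemma task_dec {t : Stp} (hsub : (pairOf (ofLex t).1).1 ⊆ (pairOf (ofLex t).1).2)
    (h : ∀ s < t, Settled (before t) (task s).1 (task s).2 ∨
      ¬ (pairOf (ofLex s).1).1 ⊆ (pairOf (ofLex s).1).2) :
    (task t).1 = (task t).2 ∨ (Settled (before t) (task t).1 (task t).1 ∧
      Settled (before t) (task t).2 (task t).2) := by
  by_cases h0 : (ofLex t).2 = 0
  · left; simp [task, h0]
  by_cases h1 : (ofLex t).2 = 1
  · left; simp [task, h1]
  right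
  have hk : ∀ k : Fin 3, k < (ofLex t).2 → toLex ((ofLex t).1, k) < t := fun k hk ↦
    Prod.Lex.lt_iff.2 (.inr ⟨rfl, hk⟩)
  have ht2 : (ofLex t).2 = 2 := by omega
  have a0 := (h _ (hk 0 (by rw [ht2]; decide))).resolve_right fun h ↦ h hsub
  have a1 := (h _ (hk 1 (by rw [ht2]; decide))).resolve_right fun h ↦ h hsub
  simp [task, ht2] at a0 a1 ⊢
  exact ⟨a1, a0⟩

lemma main_induction (hS : SplitHyp) (t : Stp) :
    Inv (before t ∪ added t) ∧ ((pairOf (ofLex t).1).1 ⊆ (pairOf (ofLex t).1).2 →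
      Settled (before t ∪ added t) (task t).1 (task t).2) := by
  induction t using WellFoundedLT.induction with
  | _ t ih =>
    have hB : Inv (before t) := by
      have e : before t = ⋃ s : Iio t, (before s.1 ∪ added s.1) := by
        apply subset_antisymm
        · simp only [before, iUnion_subset_iff]
          exact fun s hs x hx ↦ mem_iUnion.2 ⟨⟨s, hs⟩, .inr hx⟩
        · exact iUnion_subset fun s ↦ before_mono s.2
      rw [e]
      refine inv_iUnion _ fun a b ↦ ?_
      rcases lt_trichotomy a.1 b.1 with h | h | h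
      · exact ⟨b, (before_mono h).trans subset_union_left, subset_rfl, (ih b.1 b.2).1⟩
      · exact ⟨a, subset_rfl, by rw [h], (ih a.1 a.2).1⟩
      · exact ⟨a, subset_rfl, (before_mono h).trans subset_union_left, (ih a.1 a.2).1⟩
    by_cases hsub : (pairOf (ofLex t).1).1 ⊆ (pairOf (ofLex t).1).2
    · have hlt : ∀ x ∈ before t, x.2 < t := by
        intro x hx
        simp only [before, mem_iUnion] at hx
        obtain ⟨s, hs, hx⟩ := hx
        exact ((added_sub s).2 x hx).trans_lt hs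
      have hIX : (task t).1 ⊆ (task t).2 := by
        unfold task; split_ifs <;> simp [hsub]
      have hdec := task_dec hsub fun s hs ↦ by
        by_cases hs' : (pairOf (ofLex s).1).1 ⊆ (pairOf (ofLex s).1).2
        · exact .inl (((ih s hs).2 hs').mono (before_mono hs))
        · exact .inr hs'
      have hex : ∃ G, Good (before t) t (task t).1 (task t).2 G :=
        step hS hB (mk_before t) hlt hIX hdec
      have := hex.choose_spec
      rw [added_eq, pick, dif_pos hex]
      exact ⟨this.2.2.1, fun _ ↦ this.2.2.2⟩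
    · refine ⟨?_, fun h ↦ absurd h hsub⟩
      rw [added_eq, pick]
      split_ifs with h
      · exact h.choose_spec.2.2.1
      · simpa using hB

lemma inv_reps (hS : SplitHyp) : Inv reps := by
  have e : reps = ⋃ t, (before t ∪ added t) := by
    refine subset_antisymm (iUnion_mono fun t ↦ subset_union_right) (iUnion_subset fun t ↦ ?_)
    refine union_subset ?_ (subset_iUnion added t)
    simp only [before, iUnion_subset_iff]
    exact fun s _ ↦ subset_iUnion added s
  rw [e]
  refine inv_iUnion _ fun a b ↦ ?_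
  rcases lt_trichotomy a b with h | h | h
  · exact ⟨b, (before_mono h).trans subset_union_left, subset_rfl, (main_induction hS b).1⟩
  · exact ⟨a, subset_rfl, by rw [h], (main_induction hS a).1⟩
  · exact ⟨a, subset_rfl, (before_mono h).trans subset_union_left, (main_induction hS a).1⟩

lemma settled_reps (hS : SplitHyp) {I X : Set Y} (hIX : I ⊆ X) : Settled reps I X := by
  set t : Stp := toLex (pairOf.symm (I, X), 2)
  have h := (main_induction hS t).2 (by simpa [t] using hIX)
  have e : task t = (I, X) := by simp [task, t]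
  rw [e] at h
  refine h.mono (union_subset ?_ (subset_iUnion added t))
  simp only [before, iUnion_subset_iff]
  exact fun s _ ↦ subset_iUnion added s

/-! ### The matroid -/

/-- The bases: finite exchanges of representatives. -/
def IsB (B : Set Y) : Prop := ∃ x ∈ reps, Eqv B x.1

lemma isB_eq_of_subset (hS : SplitHyp) {B C : Set Y} (hB : IsB B) (hC : IsB C) (h : B ⊆ C) :
    B = C := by
  obtain ⟨x, hx, hBx⟩ := hB
  obtain ⟨y, hy, hCy⟩ := hC
  rcases eq_or_ne x y with rfl | hne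
  · exact (hBx.trans hCy.symm).eq_of_subset h
  · exact absurd (hBx.symm.AS.trans ((AS.of_subset h).trans hCy.AS))
      (((inv_reps hS x hx).2 y hy).1 hne)

lemma isB_settles (hS : SplitHyp) {I X : Set Y} (hIX : I ⊆ X) :
    ∃ B, IsB B ∧ (X ⊆ B ∨ B ⊆ I ∨ (I ⊆ B ∧ B ⊆ X)) := by
  obtain ⟨x, hx, h⟩ := settled_reps hS hIX
  obtain ⟨B, hB, hB'⟩ := settle hIX h
  exact ⟨B, ⟨x, hx, hB⟩, hB'⟩

/-- The wild uniform matroid. -/
def wild (hS : SplitHyp) : Matroid Y where
  E := univ
  IsBase := IsB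
  Indep I := ∃ B, IsB B ∧ I ⊆ B
  indep_iff' := by intro I; rfl
  exists_isBase := (isB_settles hS (subset_univ (∅ : Set Y))).imp fun _ h ↦ h.1
  isBase_exchange := by
    intro B C hB hC a ha
    obtain ⟨b, hb⟩ : (C \ B).Nonempty := by
      rw [sdiff_nonempty]
      exact fun h ↦ ha.2 ((isB_eq_of_subset hS hC hB h) ▸ ha.1)
    obtain ⟨x, hx, hBx⟩ := hB
    exact ⟨b, hb, x, hx, (Eqv.exchange ha.1 hb.2).trans hBx⟩
  maximality := by
    intro X _ I ⟨B1, hB1, hIB1⟩ hIX
    obtain ⟨B, hB, h⟩ := isB_settles hS hIX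
    rcases h with h | h | ⟨h1, h2⟩
    · exact ⟨X, hIX, ⟨⟨B, hB, h⟩, subset_rfl⟩, fun K hK _ ↦ hK.2⟩
    · have e : B = B1 := isB_eq_of_subset hS hB hB1 (h.trans hIB1)
      subst e
      refine ⟨I, subset_rfl, ⟨⟨B, hB, hIB1⟩, hIX⟩, fun K ⟨⟨C, hC, hKC⟩, _⟩ hIK ↦ ?_⟩
      have e : B = C := isB_eq_of_subset hS hB hC (h.trans (hIK.trans hKC))
      subst e
      exact hKC.trans h
    · refine ⟨B, h1, ⟨⟨B, hB, subset_rfl⟩, h2⟩, fun K ⟨⟨C, hC, hKC⟩, _⟩ hBK ↦ ?_⟩
      have e : B = C := isB_eq_of_subset hS hB hC (hBK.trans hKC)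
      subst e
      exact hKC
  subset_ground := fun B _ ↦ subset_univ B

lemma One.congr {A B : Set Y} (h : One B) (h1 : AS A B) (h2 : AS B A) : One A := by
  have e1 : Big (din A) ↔ Big (din B) := ⟨big_congr h1.din, big_congr h2.din⟩
  have e2 : Big (dout A) ↔ Big (dout B) := ⟨big_congr h1.dout, big_congr h2.dout⟩
  unfold One at *; rwa [e1, e2]

lemma Link.congr {P P' C C' : Set Y} (h : Link P C) (p1 : AS P P') (p2 : AS P' P)
    (c1 : AS C C') (c2 : AS C' C) : Link P' C' := by
  rcases h with ⟨a, b, c⟩ | ⟨a, b, c⟩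
  · refine .inl ⟨big_congr p1.dout a, big_congr c1.dout b, ?_⟩
    have := finite_inter_of_AS c2.din c
    rw [inter_comm] at this
    rw [inter_comm]
    exact finite_inter_of_AS p2.dout this
  · refine .inr ⟨big_congr p1.din a, big_congr c1.din b, ?_⟩
    have := finite_compl_of_AS c1.din c
    rw [union_comm] at this
    rw [union_comm]
    exact finite_compl_of_AS p1.dout this

/-- Existence of the wild uniform matroid. -/
theorem exists_wild (hS : SplitHyp) : ∃ U : Matroid Y, U.E = Set.univ ∧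
    (∀ X, U.Indep X ∨ ∃ B, U.IsBase B ∧ B ⊆ X) ∧ (∀ B, U.IsBase B → One B) ∧
    ∀ b : ℕ → Set Y, (∀ n, U.IsBase (b n)) → ¬ ∀ n, Link (b n) (b (n + 1)) := by
  refine ⟨wild hS, rfl, fun X ↦ ?_, ?_, fun b hb hlink ↦ ?_⟩
  · obtain ⟨B, hB, h⟩ := isB_settles hS (subset_refl X)
    rcases h with h | h | ⟨-, h⟩
    · exact .inl ⟨B, hB, h⟩
    · exact .inr ⟨B, hB, h⟩
    · exact .inr ⟨B, hB, h⟩
  · rintro B ⟨x, hx, hBx⟩
    exact (inv_reps hS x hx).1.congr hBx.AS hBx.symm.AS
  · choose x hx hbx using hb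
    have key : ∀ n, (x (n + 1)).2 < (x n).2 := fun n ↦
      ((inv_reps hS _ (hx n)).2 _ (hx (n + 1))).2
        ((hlink n).congr (hbx n).AS (hbx n).symm.AS (hbx _).AS (hbx _).symm.AS)
    obtain ⟨m, ⟨n, rfl⟩, hn⟩ := (wellFounded_lt (α := Stp)).has_min (range fun n ↦ (x n).2)
      (range_nonempty _)
    exact hn _ ⟨n + 1, rfl⟩ (key n)

end Vale.Agent.P068
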