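import Mathlib
import Vale.Agent.P068.Wild

/-!
P068: the line of wild matroids has no packing/covering partition, and the associated pair does
not satisfy intersection.
-/

namespace Vale.Agent.P068

open Set Matroid

/-- A packing/covering partition of a family of matroids with common ground set `univ`: `P`
and its complement, pairwise disjoint sets spanning the restrictions to `P`, and sets independent
in the contractions onto the complement that cover it. -/
def HasPC {α ι : Type} (M : ι → Matroid α) : Prop :=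
  ∃ (P : Set α) (S I : ι → Set α), (∀ i, S i ⊆ P) ∧ Pairwise (fun i j ↦ Disjoint (S i) (S j)) ∧
    (∀ i, (M i ↾ P).closure (S i) = P) ∧ (∀ i, ((M i)✶ ↾ Pᶜ)✶.Indep (I i)) ∧ (⋃ i, I i) = Pᶜ

/-- A pair of matroids on the same ground set satisfies intersection. -/
def SatisfiesIntersection {α : Type} (M N : Matroid α) : Prop :=
  ∃ J J' : Set α, Disjoint J J' ∧ M.Indep (J ∪ J') ∧ N.Indep (J ∪ J') ∧
    M.closure J ∪ N.closure J' = M.E

/-- The incoming bundle of a vertex. -/
def inB (j : ℤ) : ℤ := if 0 ≤ j then j - 1 else j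

/-- The outgoing bundle of a vertex. -/
def outB (j : ℤ) : ℤ := if 0 ≤ j then j else j - 1

lemma inB_ne_outB (j : ℤ) : inB j ≠ outB j := by unfold inB outB; split_ifs <;> omega

/-- The two bundles at a vertex. -/
def emb (j : ℤ) : Y → ℤ × ℕ := Sum.elim (fun n ↦ (inB j, n)) (fun n ↦ (outB j, n))

lemma emb_inj (j : ℤ) : Function.Injective (emb j) := by
  rintro (a | a) (b | b) h <;> simp [emb, inB_ne_outB, (inB_ne_outB j).symm] at h ⊢ <;> exact h

/-- The matroid at a vertex. -/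
def vertexM (U : Matroid Y) (j : ℤ) : Matroid (ℤ × ℕ) :=
  (U.map (emb j) (emb_inj j).injOn) ↾ Set.univ

lemma contract_eq {α : Type} {M : Matroid α} (hM : M.E = Set.univ) (P : Set α) :
    (M✶ ↾ Pᶜ)✶ = M ／ P := by
  rw [← dual_delete_dual, delete_eq_restrict, dual_ground, hM, compl_eq_univ_sdiff]

section

variable {U : Matroid Y} (j : ℤ)

lemma vertexM_E : (vertexM U j).E = Set.univ := rfl

lemma vertexM_indep {X : Set (ℤ × ℕ)} :
    (vertexM U j).Indep X ↔ ∃ X₀, U.Indep X₀ ∧ X = emb j '' X₀ := by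
  simp [vertexM]

lemma vertexM_indep_image {A : Set Y} : (vertexM U j).Indep (emb j '' A) ↔ U.Indep A := by
  rw [vertexM_indep]
  refine ⟨fun ⟨A', h, e⟩ ↦ ?_, fun h ↦ ⟨A, h, rfl⟩⟩
  rwa [(emb_inj j).image_injective e]

lemma vertexM_isBase {B : Set Y} (hB : U.IsBase B) : (vertexM U j).IsBase (emb j '' B) := by
  rw [isBase_iff_maximal_indep]
  refine ⟨(vertexM_indep_image j).2 hB.indep, fun X hX hBX ↦ ?_⟩
  obtain ⟨A, hA, rfl⟩ := (vertexM_indep j).1 hX
  rw [hB.eq_of_subset_indep hA ((image_subset_image_iff (emb_inj j)).1 hBX)]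

lemma isBase_of_vertexM {X : Set (ℤ × ℕ)} (hX : (vertexM U j).IsBase X) :
    ∃ B, U.IsBase B ∧ X = emb j '' B := by
  obtain ⟨A, hA, rfl⟩ := (vertexM_indep j).1 hX.indep
  obtain ⟨B, hB, hAB⟩ := hA.exists_isBase_superset
  refine ⟨B, hB, hX.eq_of_subset_indep ((vertexM_indep_image j).2 hB.indep) (image_mono hAB)⟩

lemma loop_mem_closure {X : Set (ℤ × ℕ)} {e : ℤ × ℕ} (he : e ∉ range (emb j)) :
    e ∈ (vertexM U j).closure X := by
  refine (vertexM U j).closure_subset_closure (empty_subset X) ?_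
  rw [Matroid.Indep.mem_closure_iff' (vertexM U j).empty_indep]
  refine ⟨trivial, fun h ↦ absurd h fun h ↦ ?_⟩
  obtain ⟨A, -, hA⟩ := (vertexM_indep j).1 h
  have : e ∈ insert e (∅ : Set (ℤ × ℕ)) := mem_insert _ _
  rw [hA] at this
  exact he (image_subset_range _ _ this)

variable {P S I : Set (ℤ × ℕ)}

/-- A vertex whose part of `P` spans. -/
lemma spanning_case (hSP : S ⊆ P) (hS : (vertexM U j ↾ P).closure S = P)
    (hI : ((vertexM U j)✶ ↾ Pᶜ)✶.Indep I) {B : Set Y} (hB : U.IsBase B)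
    (hBP : B ⊆ emb j ⁻¹' P) :
    (∃ B', U.IsBase B' ∧ B' ⊆ emb j ⁻¹' S) ∧ I = ∅ := by
  have hB' := vertexM_isBase (U := U) j hB
  have hBP' : emb j '' B ⊆ P := image_subset_iff.2 hBP
  rw [restrict_closure_eq _ hSP (by simp [vertexM_E])] at hS
  refine ⟨?_, ?_⟩
  · have h1 : emb j '' B ⊆ (vertexM U j).closure S := fun x hx ↦ by
      have : x ∈ P := hBP' hx
      rw [← hS] at this; exact this.1
    have h2 : (vertexM U j).closure S = (vertexM U j).E := by
      refine subset_antisymm (closure_subset_ground _ _) ?_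
      rw [← hB'.closure_eq]
      exact (closure_subset_closure_of_subset_closure h1)
    have h3 : (vertexM U j).Spanning S :=
      (spanning_iff_closure_eq (by simp [vertexM_E])).2 h2
    obtain ⟨X, hX, hXS⟩ := h3.exists_isBase_subset
    obtain ⟨B1, hB1, rfl⟩ := isBase_of_vertexM j hX
    exact ⟨B1, hB1, image_subset_iff.1 hXS⟩
  · rw [contract_eq (vertexM_E j)] at hI
    have hbas : (vertexM U j).IsBasis (emb j '' B) P :=
      hB'.indep.isBasis_of_subset_of_subset_closure hBP' (by rw [hB'.closure_eq]; simp [vertexM_E])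
    obtain ⟨h1, h2⟩ := hbas.contract_indep_iff.1 hI
    have h3 := hB'.eq_of_subset_indep h1 subset_union_right
    refine eq_empty_iff_forall_notMem.2 fun x hx ↦ disjoint_left.1 h2 ?_ hx
    exact hBP' (h3.symm ▸ (.inl hx : x ∈ I ∪ emb j '' B))

/-- A vertex whose part of `P` is independent. -/
lemma indep_case (hSP : S ⊆ P) (hS : (vertexM U j ↾ P).closure S = P)
    (hI : ((vertexM U j)✶ ↾ Pᶜ)✶.Indep I) (hP : U.Indep (emb j ⁻¹' P)) :
    emb j ⁻¹' P ⊆ emb j ⁻¹' S ∧ U.Indep (emb j ⁻¹' (P ∪ I)) := by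
  set J := emb j '' (emb j ⁻¹' P) with hJ
  have hJi : (vertexM U j).Indep J := (vertexM_indep_image j).2 hP
  have hJP : J ⊆ P := image_preimage_subset _ _
  rw [restrict_closure_eq _ hSP (by simp [vertexM_E])] at hS
  refine ⟨fun a ha ↦ by_contra fun haS ↦ ?_, ?_⟩
  · have he : emb j a ∈ J := ⟨a, ha, rfl⟩
    refine hJi.notMem_closure_sdiff_of_mem he ?_
    refine closure_subset_closure_of_subset_closure (X := S) ?_
      (by rw [← hS] at ha; exact ha.1)
    intro x hx
    by_cases hr : x ∈ range (emb j)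
    · obtain ⟨b, rfl⟩ := hr
      refine mem_closure_of_mem' _ ⟨⟨b, hSP hx, rfl⟩, ?_⟩ trivial
      intro hb
      exact haS ((mem_singleton_iff.1 hb) ▸ hx : emb j a ∈ S)
    · exact loop_mem_closure j hr
  · rw [contract_eq (vertexM_E j)] at hI
    have hbas : (vertexM U j).IsBasis J P := by
      refine hJi.isBasis_of_subset_of_subset_closure hJP fun x hx ↦ ?_
      by_cases hr : x ∈ range (emb j)
      · obtain ⟨b, rfl⟩ := hr
        exact mem_closure_of_mem' _ ⟨b, hx, rfl⟩ trivial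
      · exact loop_mem_closure j hr
    obtain ⟨A, hA, hAe⟩ := (vertexM_indep j).1 (hbas.contract_indep_iff.1 hI).1
    refine hA.subset fun a ha ↦ ?_
    have : emb j a ∈ I ∪ J := ha.elim (fun h ↦ .inr ⟨a, h, rfl⟩) .inl
    rw [hAe] at this
    exact (emb_inj j).mem_set_image.1 this

lemma mem_range_of_indep (hI : ((vertexM U j)✶ ↾ Pᶜ)✶.Indep I) {e : ℤ × ℕ} (he : e ∈ I) :
    e ∈ range (emb j) := by
  rw [contract_eq (vertexM_E j)] at hI
  obtain ⟨A, -, hA⟩ := (vertexM_indep j).1 hI.of_contract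
  rw [hA] at he
  exact image_subset_range _ _ he

end

/-- The line of wild matroids has no packing/covering partition. -/
theorem no_pc {U : Matroid Y} (hU : ∀ X, U.Indep X ∨ ∃ B, U.IsBase B ∧ B ⊆ X)
    (hone : ∀ B, U.IsBase B → One B)
    (hlink : ∀ b : ℕ → Set Y, (∀ n, U.IsBase (b n)) → ¬ ∀ n, Link (b n) (b (n + 1))) :
    ¬ HasPC (vertexM U) := by
  classical
  rintro ⟨P, S, I, hSP, hdisj, hS, hI, hcov⟩
  -- the vertices where `P` spans, and the trace attached to each vertex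
  set A : ℤ → Prop := fun j ↦ ∃ B, U.IsBase B ∧ B ⊆ emb j ⁻¹' P with hA
  set T : ℤ → Set (ℤ × ℕ) := fun j ↦ if A j then S j else P ∪ I j with hT
  have tA : ∀ {j}, A j → T j = S j := fun {j} h ↦ by simp [T, h]
  have tB : ∀ {j}, ¬ A j → T j = P ∪ I j := fun {j} h ↦ by simp [T, h]
  set row : Set (ℤ × ℕ) → ℤ → Set ℕ := fun Z b ↦ {n | (b, n) ∈ Z} with hrow
  have din_eq : ∀ Z j, din (emb j ⁻¹' Z) = row Z (inB j) := fun Z j ↦ rfl
  have dout_eq : ∀ Z j, dout (emb j ⁻¹' Z) = row Z (outB j) := fun Z j ↦ rfl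
  have hbase : ∀ j, ∃ B, U.IsBase B ∧
      (A j → B ⊆ emb j ⁻¹' T j) ∧ (¬ A j → emb j ⁻¹' T j ⊆ B) := by
    intro j
    by_cases h : A j
    · obtain ⟨B, hB, hBP⟩ := h
      obtain ⟨⟨B', hB', hB'S⟩, -⟩ := spanning_case j (hSP j) (hS j) (hI j) hB hBP
      exact ⟨B', hB', fun h ↦ by rw [tA h]; exact hB'S, fun h ↦ absurd ⟨B, hB, hBP⟩ h⟩
    · have hP := (hU (emb j ⁻¹' P)).resolve_right h
      obtain ⟨B, hB, hsub⟩ :=
        (indep_case j (hSP j) (hS j) (hI j) hP).2.exists_isBase_superset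
      exact ⟨B, hB, fun h' ↦ absurd h' h, fun _ ↦ by rw [tB h]; exact hsub⟩
  choose Bs hBs hBA hBB using hbase
  -- largeness at the two bundles `j - 1` and `j` of a vertex `j`
  set L : ℤ → Prop := fun j ↦ Big (row (T j) (j - 1)) with hL
  set R : ℤ → Prop := fun j ↦ Big (row (T j) j) with hR
  have side : ∀ j, (L j ∧ R j ↔ Big (row (T j) (inB j)) ∧ Big (row (T j) (outB j))) ∧
      (L j ∨ R j ↔ Big (row (T j) (inB j)) ∨ Big (row (T j) (outB j))) := by
    intro j
    simp only [L, R, inB, outB]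
    split_ifs
    · exact ⟨Iff.rfl, Iff.rfl⟩
    · exact ⟨and_comm, or_comm⟩
  have atA : ∀ j, A j → L j ∨ R j := by
    intro j h
    rw [(side j).2]
    by_contra hc
    push Not at hc
    refine hone _ (hBs j) (iff_of_false (fun hb ↦ hc.1 (hb.mono ?_)) (fun hb ↦ hc.2 (hb.mono ?_)))
    · rw [← din_eq]; exact fun n hn ↦ hBA j h hn
    · rw [← dout_eq]; exact fun n hn ↦ hBA j h hn
  have atB : ∀ j, ¬ A j → ¬ (L j ∧ R j) := by
    intro j h
    rw [(side j).1]
    rintro ⟨h1, h2⟩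
    refine hone _ (hBs j) (iff_of_true (h1.mono ?_) (h2.mono ?_))
    · rw [← din_eq]; exact fun n hn ↦ hBB j h hn
    · rw [← dout_eq]; exact fun n hn ↦ hBB j h hn
  -- the shared bundle `j` of the vertices `j` and `j + 1`
  have only : ∀ (j i : ℤ) (n : ℕ), (j, n) ∈ I i → i = j ∨ i = j + 1 := by
    intro j i n h
    obtain ⟨y, hy⟩ := mem_range_of_indep i (hI i) h
    rcases y with m | m <;> simp [emb, inB, outB] at hy <;> split_ifs at hy <;> omega
  have cover : ∀ j n, (j, n) ∉ P → (j, n) ∈ I j ∨ (j, n) ∈ I (j + 1) := by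
    intro j n h
    have : ((j, n) : ℤ × ℕ) ∈ ⋃ i, I i := by rw [hcov]; exact h
    obtain ⟨i, hi⟩ := mem_iUnion.1 this
    rcases only j i n hi with rfl | rfl
    · exact .inl hi
    · exact .inr hi
  have noI : ∀ j, A j → I j = ∅ := fun j ⟨B, hB, hBP⟩ ↦
    (spanning_case j (hSP j) (hS j) (hI j) hB hBP).2
  have hasS : ∀ k b n, ¬ A k → (b = k - 1 ∨ b = k) → (b, n) ∈ P → (b, n) ∈ S k := by
    intro k b n h hb hp
    obtain ⟨y, hy⟩ : ((b, n) : ℤ × ℕ) ∈ range (emb k) := by
      rcases hb with rfl | rfl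
      · by_cases h0 : 0 ≤ k
        · exact ⟨.inl n, by simp [emb, inB, h0]⟩
        · exact ⟨.inr n, by simp [emb, outB, h0]⟩
      · by_cases h0 : 0 ≤ b
        · exact ⟨.inr n, by simp [emb, outB, h0]⟩
        · exact ⟨.inl n, by simp [emb, inB, h0]⟩
    have := (indep_case k (hSP k) (hS k) (hI k) ((hU _).resolve_right h)).1
      (show y ∈ emb k ⁻¹' P by rw [mem_preimage, hy]; exact hp)
    rwa [mem_preimage, hy] at this
  have AA : ∀ j, A j → A (j + 1) → row (T j) j ∩ row (T (j + 1)) j = ∅ := by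
    intro j h h'
    rw [tA h, tA h']
    exact eq_empty_iff_forall_notMem.2 fun n hn ↦
      disjoint_left.1 (hdisj (by omega : j ≠ j + 1)) hn.1 hn.2
  have BB : ∀ j, ¬ A j → ¬ A (j + 1) → row (T j) j ∪ row (T (j + 1)) j = Set.univ := by
    intro j h h'
    rw [tB h, tB h']
    refine eq_univ_iff_forall.2 fun n ↦ ?_
    by_cases hp : (j, n) ∈ P
    · exact .inl (.inl hp)
    · exact (cover j n hp).imp .inr .inr
  have ABr : ∀ j, A j → ¬ A (j + 1) → ¬ R j ∧ L (j + 1) := by
    intro j h h'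
    have e1 : row (T j) j = ∅ := by
      rw [tA h]
      exact eq_empty_iff_forall_notMem.2 fun n hn ↦ disjoint_left.1 (hdisj (by omega : j ≠ j + 1))
        hn (hasS _ j n h' (.inl (by omega)) (hSP j hn))
    have e2 : row (T (j + 1)) (j + 1 - 1) = Set.univ := by
      rw [tB h', show j + 1 - 1 = j by omega]
      refine eq_univ_iff_forall.2 fun n ↦ ?_
      by_cases hp : (j, n) ∈ P
      · exact .inl hp
      · exact .inr ((cover j n hp).resolve_left fun hn ↦ by rw [noI j h] at hn; exact hn)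
    exact ⟨by simp only [R]; rw [e1]; exact not_big_empty,
      by simp only [L]; rw [e2]; exact big_univ⟩
  have ABl : ∀ j, ¬ A j → A (j + 1) → R j ∧ ¬ L (j + 1) := by
    intro j h h'
    have e1 : row (T j) j = Set.univ := by
      rw [tB h]
      refine eq_univ_iff_forall.2 fun n ↦ ?_
      by_cases hp : (j, n) ∈ P
      · exact .inl hp
      · exact .inr ((cover j n hp).resolve_right fun hn ↦ by rw [noI _ h'] at hn; exact hn)
    have e2 : row (T (j + 1)) (j + 1 - 1) = ∅ := by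
      rw [tA h', show j + 1 - 1 = j by omega]
      exact eq_empty_iff_forall_notMem.2 fun n hn ↦ disjoint_left.1 (hdisj (by omega : j + 1 ≠ j))
        hn (hasS _ j n h (.inr rfl) (hSP _ hn))
    exact ⟨by simp only [R]; rw [e1]; exact big_univ,
      by simp only [L]; rw [e2]; exact not_big_empty⟩
  have hLj : ∀ j : ℤ, L (j + 1) = Big (row (T (j + 1)) j) := fun j ↦ by
    simp only [L]; rw [show j + 1 - 1 = j by omega]
  have AAb : ∀ j, A j → A (j + 1) → ¬ (R j ∧ L (j + 1)) := by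
    intro j h h'
    rintro ⟨a, b⟩
    rw [hLj] at b
    exact not_big_empty ((AA j h h') ▸ big_inter a b)
  have BBb : ∀ j, ¬ A j → ¬ A (j + 1) → R j ∨ L (j + 1) := by
    intro j h h'
    rw [hLj]
    exact big_union.1 ((BB j h h').symm ▸ big_univ)
  -- the four propagation rules
  have PR : ∀ j, A j → R j → A (j + 1) ∧ R (j + 1) ∧ ¬ L (j + 1) := by
    intro j h hr
    have h' : A (j + 1) := by_contra fun h' ↦ (ABr j h h').1 hr
    have hl : ¬ L (j + 1) := fun hl ↦ AAb j h h' ⟨hr, hl⟩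
    exact ⟨h', (atA _ h').resolve_left hl, hl⟩
  have CR : ∀ j, ¬ A j → ¬ R j → ¬ A (j + 1) ∧ L (j + 1) ∧ ¬ R (j + 1) := by
    intro j h hr
    have h' : ¬ A (j + 1) := fun h' ↦ hr (ABl j h h').1
    have hl : L (j + 1) := (BBb j h h').resolve_left hr
    exact ⟨h', hl, fun hr' ↦ atB _ h' ⟨hl, hr'⟩⟩
  have PL : ∀ j, A (j + 1) → L (j + 1) → A j ∧ L j ∧ ¬ R j := by
    intro j h hl
    have h' : A j := by_contra fun h' ↦ (ABl j h' h).2 hl
    have hr : ¬ R j := fun hr ↦ AAb j h' h ⟨hr, hl⟩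
    exact ⟨h', (atA _ h').resolve_right hr, hr⟩
  have CL : ∀ j, ¬ A (j + 1) → ¬ L (j + 1) → ¬ A j ∧ R j ∧ ¬ L j := by
    intro j h hl
    have h' : ¬ A j := fun h' ↦ hl (ABr j h' h).2
    have hr : R j := (BBb j h' h).resolve_right hl
    exact ⟨h', hr, fun hl' ↦ atB _ h' ⟨hl', hr⟩⟩
  -- chains
  have packR : ∀ f : ℕ → ℤ, (∀ k, outB (f k) = inB (f (k + 1))) → (∀ k, A (f k)) →
      (∀ k, ¬ Big (row (T (f k)) (inB (f k)))) →
      (∀ k, row (T (f k)) (outB (f k)) ∩ row (T (f (k + 1))) (inB (f (k + 1))) = ∅) → False := by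
    intro f _ hfA hni hd
    have hsub : ∀ k, din (Bs (f k)) ⊆ row (T (f k)) (inB (f k)) ∧
        dout (Bs (f k)) ⊆ row (T (f k)) (outB (f k)) := fun k ↦
      ⟨fun n hn ↦ hBA _ (hfA k) hn, fun n hn ↦ hBA _ (hfA k) hn⟩
    have hbig : ∀ k, Big (dout (Bs (f k))) := fun k ↦ by_contra fun hc ↦
      hone _ (hBs _) (iff_of_false (fun hb ↦ hni k (hb.mono (hsub k).1)) hc)
    refine hlink (fun k ↦ Bs (f k)) (fun k ↦ hBs _) fun k ↦ .inl ⟨hbig k, hbig (k + 1), ?_⟩
    exact finite_empty.subset ((inter_subset_inter (hsub k).2 (hsub (k + 1)).1).trans (hd k).subset)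
  have covR : ∀ f : ℕ → ℤ, (∀ k, ¬ A (f k)) → (∀ k, Big (row (T (f k)) (inB (f k)))) →
      (∀ k, row (T (f k)) (outB (f k)) ∪ row (T (f (k + 1))) (inB (f (k + 1))) = Set.univ) →
      False := by
    intro f hfA hbi hd
    have hsub : ∀ k, row (T (f k)) (inB (f k)) ⊆ din (Bs (f k)) ∧
        row (T (f k)) (outB (f k)) ⊆ dout (Bs (f k)) := fun k ↦
      ⟨fun n hn ↦ hBB _ (hfA k) hn, fun n hn ↦ hBB _ (hfA k) hn⟩
    refine hlink (fun k ↦ Bs (f k)) (fun k ↦ hBs _) fun k ↦
      .inr ⟨(hbi k).mono (hsub k).1, (hbi (k + 1)).mono (hsub (k + 1)).1, ?_⟩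
    refine finite_empty.subset ?_
    rw [← compl_univ, compl_subset_compl, ← hd k]
    exact union_subset_union (hsub k).2 (hsub (k + 1)).1
  have eR : ∀ k : ℕ, inB ((k : ℤ) + 1) = (k : ℤ) + 1 - 1 ∧ outB ((k : ℤ) + 1) = (k : ℤ) + 1 :=
    fun k ↦ by simp only [inB, outB]; split_ifs <;> omega
  have eL : ∀ k : ℕ, inB (-((k : ℤ) + 1)) = -((k : ℤ) + 1) ∧
      outB (-((k : ℤ) + 1)) = -((k : ℤ) + 1) - 1 :=
    fun k ↦ by simp only [inB, outB]; split_ifs <;> omega
  by_cases h0 : A 0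
  · by_cases hr : R 0
    · have hall : ∀ k : ℕ, A ((k : ℤ) + 1) ∧ R ((k : ℤ) + 1) ∧ ¬ L ((k : ℤ) + 1) := by
        intro k
        induction k with
        | zero => simpa using PR 0 h0 hr
        | succ k ih => simpa using PR _ ih.1 ih.2.1
      refine packR (fun k ↦ (k : ℤ) + 1) (fun k ↦ by rw [(eR k).2, (eR (k + 1)).1]; push_cast; omega)
        (fun k ↦ (hall k).1) (fun k ↦ by rw [(eR k).1]; exact (hall k).2.2) fun k ↦ ?_
      rw [(eR k).2, (eR (k + 1)).1]
      push_cast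
      rw [show (k : ℤ) + 1 + 1 - 1 = k + 1 by omega]
      exact AA _ (hall k).1 (by simpa using (hall (k + 1)).1)
    · have hl : L 0 := (atA 0 h0).resolve_right hr
      have hall : ∀ k : ℕ, A (-((k : ℤ) + 1)) ∧ L (-((k : ℤ) + 1)) ∧ ¬ R (-((k : ℤ) + 1)) := by
        intro k
        induction k with
        | zero => simpa using PL (-1) (by simpa using h0) (by simpa using hl)
        | succ k ih =>
          refine PL _ ?_ ?_ <;>
            rw [show -(((k + 1 : ℕ) : ℤ) + 1) + 1 = -((k : ℤ) + 1) by push_cast; omega]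
          exacts [ih.1, ih.2.1]
      refine packR (fun k ↦ -((k : ℤ) + 1)) (fun k ↦ by rw [(eL k).2, (eL (k + 1)).1]; push_cast; omega)
        (fun k ↦ (hall k).1) (fun k ↦ by rw [(eL k).1]; exact (hall k).2.2) fun k ↦ ?_
      rw [(eL k).2, (eL (k + 1)).1]
      have h := AA (-(((k + 1 : ℕ) : ℤ) + 1)) (hall (k + 1)).1
        (by rw [show -(((k + 1 : ℕ) : ℤ) + 1) + 1 = -((k : ℤ) + 1) by push_cast; omega]
            exact (hall k).1)
      rw [show -(((k + 1 : ℕ) : ℤ) + 1) + 1 = -((k : ℤ) + 1) by push_cast; omega] at h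
      rw [inter_comm] at h
      rw [show -((k : ℤ) + 1) - 1 = -(((k + 1 : ℕ) : ℤ) + 1) by push_cast; omega]
      exact h
  · by_cases hr : R 0
    · have hl : ¬ L 0 := fun hl ↦ atB 0 h0 ⟨hl, hr⟩
      have hall : ∀ k : ℕ, ¬ A (-((k : ℤ) + 1)) ∧ R (-((k : ℤ) + 1)) ∧ ¬ L (-((k : ℤ) + 1)) := by
        intro k
        induction k with
        | zero => simpa using CL (-1) (by simpa using h0) (by simpa using hl)
        | succ k ih =>
          refine CL _ ?_ ?_ <;>
            rw [show -(((k + 1 : ℕ) : ℤ) + 1) + 1 = -((k : ℤ) + 1) by push_cast; omega]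
          exacts [ih.1, ih.2.2]
      refine covR (fun k ↦ -((k : ℤ) + 1)) (fun k ↦ (hall k).1)
        (fun k ↦ by rw [(eL k).1]; exact (hall k).2.1) fun k ↦ ?_
      rw [(eL k).2, (eL (k + 1)).1]
      have h := BB (-(((k + 1 : ℕ) : ℤ) + 1)) (hall (k + 1)).1
        (by rw [show -(((k + 1 : ℕ) : ℤ) + 1) + 1 = -((k : ℤ) + 1) by push_cast; omega]
            exact (hall k).1)
      rw [show -(((k + 1 : ℕ) : ℤ) + 1) + 1 = -((k : ℤ) + 1) by push_cast; omega] at h
      rw [union_comm] at h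
      rw [show -((k : ℤ) + 1) - 1 = -(((k + 1 : ℕ) : ℤ) + 1) by push_cast; omega]
      exact h
    · have hall : ∀ k : ℕ, ¬ A ((k : ℤ) + 1) ∧ L ((k : ℤ) + 1) ∧ ¬ R ((k : ℤ) + 1) := by
        intro k
        induction k with
        | zero => simpa using CR 0 h0 hr
        | succ k ih => simpa using CR _ ih.1 ih.2.2
      refine covR (fun k ↦ (k : ℤ) + 1) (fun k ↦ (hall k).1)
        (fun k ↦ by rw [(eR k).1]; exact (hall k).2.1) fun k ↦ ?_
      rw [(eR k).2, (eR (k + 1)).1]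
      push_cast
      rw [show (k : ℤ) + 1 + 1 - 1 = k + 1 by omega]
      exact BB _ (hall k).1 (by simpa using (hall (k + 1)).1)

/-- The pair made from a family satisfies intersection only if the family has a packing/covering
partition. -/
theorem pc_of_intersection {α ι : Type} (M : ι → Matroid α) (hE : ∀ i, (M i).E = Set.univ)
    (h : SatisfiesIntersection (Matroid.sum' M) ((freeOn (Set.univ : Set α)).comap Prod.snd)) :
    HasPC M := by
  obtain ⟨J, J', hdj, hM, hN, hcl⟩ := h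
  rw [comap_indep_iff] at hN
  have inj := hN.2
  rw [sum'_indep_iff] at hM
  set P : Set α := {e | ∀ i, (i, e) ∉ J'} with hP
  have rowsub : ∀ i, Prod.mk i ⁻¹' J ⊆ P := by
    intro i e he i' he'
    obtain ⟨rfl, -⟩ := Prod.mk.inj (inj (.inl he) (.inr he') rfl)
    exact disjoint_left.1 hdj he he'
  have hJi : ∀ i, (M i).Indep (Prod.mk i ⁻¹' J) := fun i ↦
    (hM i).subset (preimage_mono subset_union_left)
  have hPcl : ∀ i, P ⊆ (M i).closure (Prod.mk i ⁻¹' J) := by
    intro i e he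
    have hmem : (i, e) ∈ (Matroid.sum' M).E := by simp [hE]
    rw [← hcl] at hmem
    rcases hmem with hmem | hmem
    · have hJs : (Matroid.sum' M).Indep J := by rw [sum'_indep_iff]; exact hJi
      rw [hJs.mem_closure_iff'] at hmem
      rw [(hJi i).mem_closure_iff']
      refine ⟨by rw [hE]; trivial, fun hins ↦ hmem.2 ?_⟩
      rw [sum'_indep_iff]
      intro k
      by_cases hk : k = i
      · subst hk
        refine hins.subset fun a ha ↦ ?_
        rcases ha with ha | ha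
        · exact .inl (Prod.mk.inj ha).2
        · exact .inr ha
      · refine (hJi k).subset fun a ha ↦ ?_
        rcases ha with ha | ha
        · exact absurd (Prod.mk.inj ha).1 hk
        · exact ha
    · exfalso
      have hJ' : ((freeOn (Set.univ : Set α)).comap Prod.snd).Indep J' := by
        rw [comap_indep_iff]; exact ⟨freeOn_indep (subset_univ _), inj.mono subset_union_right⟩
      rw [hJ'.mem_closure_iff'] at hmem
      refine he i (hmem.2 ?_)
      rw [comap_indep_iff]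
      refine ⟨freeOn_indep (subset_univ _), ?_⟩
      have hni : (i, e) ∉ J' := he i
      rw [injOn_insert hni]
      refine ⟨inj.mono subset_union_right, ?_⟩
      rintro ⟨⟨i', e'⟩, hx, rfl⟩
      exact he i' hx
  refine ⟨P, fun i ↦ Prod.mk i ⁻¹' J, fun i ↦ Prod.mk i ⁻¹' J', rowsub, ?_, fun i ↦ ?_,
    fun i ↦ ?_, ?_⟩
  · intro i k hik
    refine disjoint_left.2 fun e he he' ↦ hik ?_
    exact (Prod.mk.inj (inj (.inl he) (.inl he') rfl)).1
  · rw [restrict_closure_eq _ (rowsub i) (by simp [hE]), inter_eq_right.2 (hPcl i)]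
  · rw [contract_eq (hE i)]
    have hbas := (hJi i).isBasis_of_subset_of_subset_closure (rowsub i) (hPcl i)
    rw [hbas.contract_indep_iff]
    refine ⟨(hM i).subset ?_, disjoint_left.2 fun e he he' ↦ he i he'⟩
    rw [union_comm, preimage_union]
  · ext e
    simp [P]

/-- Under the splitting hypothesis both conjectures fail on countable ground sets. -/
theorem disproof (hS : SplitHyp) :
    (∃ M : ℤ → Matroid (ℤ × ℕ), (∀ i, (M i).E = Set.univ) ∧ ¬ HasPC M) ∧
    (∃ M N : Matroid (ℤ × (ℤ × ℕ)), M.E = Set.univ ∧ N.E = Set.univ ∧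
      ¬ SatisfiesIntersection M N) := by
  obtain ⟨U, -, hU, hone, hlink⟩ := exists_wild hS
  refine ⟨⟨vertexM U, fun i ↦ rfl, no_pc hU hone hlink⟩, Matroid.sum' (vertexM U),
    (freeOn (Set.univ : Set (ℤ × ℕ))).comap Prod.snd, ?_, by simp, fun h ↦ ?_⟩
  · ext ⟨i, e⟩; simp [vertexM_E]
  · exact no_pc hU hone hlink (pc_of_intersection _ (fun i ↦ rfl) h)

end Vale.Agent.P068
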